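import Vale.Agent.P032X.H942.Kinds

/-!
# P032: an `abef` end which is a two-pair point gives a tie on its own circle

`z` two-pair point `ab | cd`, missing colours `ef`, `v` on `S(z)` with `T v = abef`, `v'` on `S(z)` and
`S(v)`.  `nbr_cd`: if `be` and `af` are faces at `v`, `v'` does not carry both `e` and `f`, and the four
coloured points of the closure of the exact `ab`-arcs carry `e` and `f`, then `v'` is in the closure of the
exact `cd`-arcs.  `db_tie`: so if `v` is a two-pair point `ae | bf`, the missing colours `cd` of `v` are at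
`z` and at `v'`: a tie on `S(v)`.
-/

open Set Filter Topology Metric

noncomputable section

namespace Vale.Agent.P032.H942

open Vale.Agent.P032.Six Vale.Agent.P032.S5.H767 Vale.Agent.P032.S5.H358 Vale.Agent.P032.S5.H349

variable {U : Fin 6 → Set ℂ} {T : ℂ → Set (Fin 6)} {z v v' y : ℂ} {a b c d e f p q r s : Fin 6}

/-- a palette on `S(v)` inside `T v` contains a pair of `v` -/
theorem dpt_sub (h : Irr U T) (hv : DPt T v p q r s) {w : ℂ} (hw : dist w v = 1)
    (hs : T w ⊆ T v) : ({p, q} : Set (Fin 6)) ⊆ T w ∨ ({r, s} : Set (Fin 6)) ⊆ T w := by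
  obtain ⟨y, -, hy1, hy2, hy3, -⟩ := h.arc_of_sub hw hs univ_mem
  rcases h.twoPairs hv y hy1 hy2 (hy3.trans hs) with h1 | h1
  · exact Or.inl (h1 ▸ hy3)
  · exact Or.inr (h1 ▸ hy3)

/-- faces at a two-pair point -/
theorem dpt_fc (h : Irr U T) (hv : DPt T v p q r s) {S : Set (Fin 6)} (hS : S ⊆ T v)
    (h1 : ¬ ({p, q} : Set (Fin 6)) ⊆ S) (h2 : ¬ ({r, s} : Set (Fin 6)) ⊆ S) : Fc T v S := by
  intro w hw hws
  rcases dpt_sub h hv hw (hws.trans hS) with h3 | h3
  · exact h1 (h3.trans hws)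
  · exact h2 (h3.trans hws)

/-- **The neighbours on the circle of an `abef` point** -/
theorem nbr_cd (C : Ctr U T z a b c d e f) (hz : DPt T z a b c d) (hvz : dist v z = 1)
    (hTv : T v = {a, b, e, f}) (F1 : Fc T v {b, e}) (F2 : Fc T v {a, f}) (hv'z : dist v' z = 1)
    (hv'v : dist v' v = 1) (nt : ¬ (e ∈ T v' ∧ f ∈ T v')) (h4 : (T v').ncard ≤ 4)
    (hE : v' ∈ closure (Ex T z {a, b}) → (T v').ncard = 4 → e ∈ T v' ∧ f ∈ T v') :
    v' ∈ closure (Ex T z {c, d}) := by
  have h := C.irr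
  obtain ⟨⟨ab, ac, ad, ae, af⟩, ⟨bc, bd, be, bf⟩, ⟨cd, ce, cf⟩, ⟨de, df⟩, ef⟩ := C.sep
  have haz : a ∈ T z := by rw [C.pal]; simp
  have hbz : b ∈ T z := by rw [C.pal]; simp
  -- a colour `c` or `d`
  have hcd : c ∈ T v' ∨ d ∈ T v' := by
    by_contra hcon
    push Not at hcon
    by_cases he : e ∈ T v'
    · have hf : f ∉ T v' := fun hf => nt ⟨he, hf⟩
      refine lemmaFz h hv'z hvz hv'v F1 (t := a) (fun i hi => ?_) haz
      rcases C.all i with rfl | rfl | rfl | rfl | rfl | rfl
      · simp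
      · simp
      · exact absurd hi hcon.1
      · exact absurd hi hcon.2
      · simp
      · exact absurd hi hf
    · refine lemmaFz h hv'z hvz hv'v F2 (t := b) (fun i hi => ?_) hbz
      rcases C.all i with rfl | rfl | rfl | rfl | rfl | rfl
      · simp
      · simp
      · exact absurd hi hcon.1
      · exact absurd hi hcon.2
      · exact absurd hi he
      · simp
  -- not in the closure of the exact `ab`-arcs
  have nab : v' ∉ closure (Ex T z {a, b}) := by
    intro hcl
    have hsub := sub_of_closure h hcl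
    have ha' : a ∈ T v' := hsub (by simp)
    have hb' : b ∈ T v' := hsub (by simp)
    have key : ∀ {x : Fin 6}, x ∈ T v' → x ≠ a → x ≠ b → Fc T z {b, x} → False := by
      intro x hx xa xb hF
      have h3 : (T v').ncard ≤ 3 := by
        by_contra h5
        exact nt (hE hcl (by omega))
      have hT : T v' = {a, b, x} := by
        symm
        refine Set.eq_of_subset_of_ncard_le ?_ ?_ (Set.toFinite _)
        · rintro i (rfl | rfl | rfl) <;> assumption
        · rw [Set.ncard_insert_of_notMem (by simp [ab, Ne.symm xa]) (Set.toFinite _),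
            Set.ncard_pair (Ne.symm xb)]
          exact h3
      obtain ⟨k1, k2⟩ := S5.H767.tri hv'z hvz
      rcases lemmaF h hv'z hF (t := a) (by rw [hT]) hv'v (h.sub v (by rw [hTv]; simp)) with h5 | h5
      · exact k1 h5.symm
      · exact k2 (by rw [add_comm]; exact h5)
    rcases hcd with hc | hd
    · refine key hc (Ne.symm ac) (Ne.symm bc) (dpt_fc h hz ?_ ?_ ?_)
      · rw [C.pal]; rintro i (rfl | rfl) <;> simp
      · intro h5
        have h6 : a ∈ ({b, c} : Set (Fin 6)) := h5 (by simp)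
        rcases h6 with h6 | h6
        exacts [ab h6, ac h6]
      · intro h5
        have h6 : d ∈ ({b, c} : Set (Fin 6)) := h5 (by simp)
        rcases h6 with h6 | h6
        exacts [bd h6.symm, cd h6.symm]
    · refine key hd (Ne.symm ad) (Ne.symm bd) (dpt_fc h hz ?_ ?_ ?_)
      · rw [C.pal]; rintro i (rfl | rfl) <;> simp
      · intro h5
        have h6 : a ∈ ({b, d} : Set (Fin 6)) := h5 (by simp)
        rcases h6 with h6 | h6
        exacts [ab h6, ad h6]
      · intro h5
        have h6 : c ∈ ({b, d} : Set (Fin 6)) := h5 (by simp)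
        rcases h6 with h6 | h6
        exacts [bc h6.symm, cd h6]
  by_contra ncd
  have hvv' : dist v v' = 1 := by rw [dist_comm]; exact hv'v
  obtain ⟨l, hl⟩ := C.cover (y := v') hv'z
  have he0 : v ∈ Lt T z a b c d e f 0 := ⟨hvz, by rw [hTv]; simp⟩
  have hf1 : v ∈ Lt T z a b c d e f 1 := ⟨hvz, by rw [hTv]; simp⟩
  by_cases he : e ∈ T v'
  · refine C.int (l := 0) hv'z (fun m hm => ?_) hvz hv'v he0
    fin_cases m
    · rfl
    · exact absurd ⟨he, hm.2⟩ nt
    · exact absurd hm nab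
    · exact absurd hm ncd
  · refine C.int (l := 1) hv'z (fun m hm => ?_) hvz hv'v hf1
    fin_cases m
    · exact absurd hm.2 he
    · rfl
    · exact absurd hm nab
    · exact absurd hm ncd

/-- **A tie on the circle of a two-pair `abef` end.** -/
theorem db_tie (h : Irr U T) (hz : DPt T z a b c d) (nd : [a, b, c, d, e, f].Nodup)
    (hvz : dist v z = 1) (hTv : T v = {a, b, e, f}) (hv : DPt T v a e b f)
    (n4 : ∀ y, dist y z = 1 → (T y).ncard ≤ 4)
    (hE : ∀ y ∈ closure (Ex T z {a, b}), (T y).ncard = 4 → e ∈ T y ∧ f ∈ T y)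
    (nt : ∀ y, dist y z = 1 → dist v y = 1 → ¬ (e ∈ T y ∧ f ∈ T y)) :
    ∃ v', dist v' z = 1 ∧ dist v' v = 1 ∧ c ∈ T v' ∧ d ∈ T v' := by
  have C := ctr_of_dpt h hz nd
  obtain ⟨⟨ab, ac, ad, ae, af⟩, ⟨bc, bd, be, bf⟩, ⟨cd, ce, cf⟩, ⟨de, df⟩, ef⟩ := C.sep
  obtain ⟨V, rfl⟩ := exists_pt hvz
  have hd := dist_pt_one z V
  have hd' : dist (pt z (V + 1)) (pt z V) = 1 := by rw [dist_comm]; exact hd
  have hcl := nbr_cd (v := pt z V) (v' := pt z (V + 1)) C hz hvz hTv (dpt_fc h hv ?_ ?_ ?_)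
    (dpt_fc h hv ?_ ?_ ?_) (dist_pt z (V + 1)) hd' (nt _ (dist_pt z (V + 1)) hd)
    (n4 _ (dist_pt z (V + 1))) (fun h1 h2 => hE _ h1 h2)
  · have hsub := sub_of_closure h hcl
    exact ⟨pt z (V + 1), dist_pt z (V + 1), hd', hsub (by simp), hsub (by simp)⟩
  · rw [hTv]; rintro i (rfl | rfl) <;> simp
  · intro h5
    have h6 : a ∈ ({b, e} : Set (Fin 6)) := h5 (by simp)
    rcases h6 with h6 | h6
    exacts [ab h6, ae h6]
  · intro h5
    have h6 : f ∈ ({b, e} : Set (Fin 6)) := h5 (by simp)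
    rcases h6 with h6 | h6
    exacts [bf h6.symm, ef h6.symm]
  · rw [hTv]; rintro i (rfl | rfl) <;> simp
  · intro h5
    have h6 : e ∈ ({a, f} : Set (Fin 6)) := h5 (by simp)
    rcases h6 with h6 | h6
    exacts [ae h6.symm, ef h6]
  · intro h5
    have h6 : b ∈ ({a, f} : Set (Fin 6)) := h5 (by simp)
    rcases h6 with h6 | h6
    exacts [ab h6.symm, bf h6]

end Vale.Agent.P032.H942
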