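import Vale.Agent.P032X.H763.DFin
import Vale.Agent.P032X.H61.BadP
import Vale.Agent.P032X.H642.Top
import Vale.Agent.P032X.H821.Mut

/-!
# P032: the special point of a two-pair point in the frames of a planar map

`fin`: the condition `hF` of `H763.dfinM`, from `H642.k3_or_c1`, `H61.BM.s1_map`, `s2_map` and
`H821.k3_mutual`.
-/

open Set Filter Topology Metric

noncomputable section

namespace Vale.Agent.P032.H942

open Vale.Agent.P032.Six Vale.Agent.P032.H355

/-- **A special end, mutual, or a tie** in the minimal frame of a six-coloured planar map without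
points with at least four colours at distance one from a five-coloured point -/
theorem fin (U : Fin 6 → Set ℂ) (T T' : ℂ → Set (Fin 6)) (h : MapPr U T T')
    (hX : ∀ z v, dist z v = 1 → (T' z).ncard = 5 → 4 ≤ (T' v).ncard → False) :
    (∃ z a b c d v, DPt T z a b c d ∧
      v ∈ closure {y | dist y z = 1 ∧ ∀ᶠ q in 𝓝[sphere z 1] y, T q = {a, b}} ∧
      z ∈ closure {y | dist y v = 1 ∧ ∀ᶠ q in 𝓝[sphere v 1] y, T q = {a, c}} ∧
      (T v).ncard = 4) ∨
    ∃ z a b c d y y', DPt T z a b c d ∧ dist y z = 1 ∧ dist y' z = 1 ∧ dist y y' = 1 ∧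
      (T z)ᶜ ⊆ T y ∧ (T z)ᶜ ⊆ T y' ∧ (T y).ncard = 4 := by
  have hX' := h.noX hX
  have hN : H299.N5 T := by
    refine ⟨h.le, fun x y hx hxy => ?_⟩
    by_contra hcon
    push Not at hcon
    exact hX' x y (by rw [dist_comm]; exact hxy) hx hcon
  rcases H642.k3_or_c1 h.fr.irr h.fr.mn hN (H61.BM.s1_map h hX) (H61.BM.s2_map h hX) with hK | hC
  · obtain ⟨z, a, b, c, d, v, hz, hcl, hv4, hns⟩ := hK
    obtain ⟨a', b', c', d', hz', -, h1, h2⟩ := H821.k3_mutual h.fr.irr hz hcl hv4 hns
    exact Or.inl ⟨z, a', b', c', d', v, hz', h1, h2, hv4⟩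
  · exact Or.inr hC

end Vale.Agent.P032.H942
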