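import Vale.Agent.P032X.H942.Gam
import Vale.Agent.P032X.H361.Starts
import Vale.Agent.P032X.H361.Far
import Vale.Agent.P032X.H374.Side

/-!
# P032: the three starts of the two-pair block, in the order B, C, E

Frame `Irr U T`, `Mn U T`, at most four colours everywhere, some two-pair point.  `starts_bce`:

* B (`KB`): some two-pair point `z`, pairs `ab | cd`, missing `ef`, has a point with the palette
  `{a, c, e, f}` on its circle, or
* C (not B, `KC`): some two-pair point has a point with the palette `{a, b, e, f}` on its circle and a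
  point with `e`, `f` at distance one of it, or
* E (not B, not C): there are a two-pair point `z` and a four coloured point `v` in the closure of its
  exact `ab`-arcs such that `v` has only one exact pair, or `v` is a two-pair point and `z` is in the
  closure of its exact `pq`-arcs (mutual ends).

No other assumption is made on the circles in start E: the run lemma contradicts the wish that all four
coloured points are ends or harmless.  `no_own_pair`: an end of the exact `ab`-arcs of `z` has no exact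
`ab`-arc if it is a two-pair point.  `no_run_end`: two two-pair points `z`, `v`, where `v` is an end
of `z` and `z` is inside a run of a missing colour of `v` (also if this colour is in `Pal U v`) and
carries an exact pair of `v`, do not exist.
-/

open Set Filter Topology Metric

noncomputable section

namespace Vale.Agent.P032.H942

open Vale.Agent.P032.Six Vale.Agent.P032.S5.H767 Vale.Agent.P032.S5.H358 Vale.Agent.P032.S5.H349
open Vale.Agent.P032.H510 Vale.Agent.P032.H361 Vale.Agent.P032.H642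

variable {U : Fin 6 → Set ℂ} {T : ℂ → Set (Fin 6)} {z v g : ℂ} {a b c d e f p q r s : Fin 6}

/-! ### an end has no exact arc of the same pair -/

/-- near `v` the points with both colours of an exact arc of `S(v)` at `g` are on `S(g)` -/
theorem on_circle_of_arc (h : Irr U T) (hv : DPt T v a b r s) (hg : Arc T v g {a, b}) :
    ∀ᶠ y in 𝓝 v, a ∈ Pal U y → b ∈ Pal U y → dist y g = 1 := by
  rcases h.sides hv hg.1 with h1 | h1
  · filter_upwards [h.sd_center hg h1] with y hy ha hb
    rcases lt_trichotomy (dist y g) 1 with h2 | h2 | h2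
    · exact absurd hb (hy.2 h2)
    · exact h2
    · exact absurd ha (hy.1 h2)
  · have hg' : Arc T v g {b, a} := by rw [Set.pair_comm]; exact hg
    filter_upwards [h.sd_center hg' h1] with y hy ha hb
    rcases lt_trichotomy (dist y g) 1 with h2 | h2 | h2
    · exact absurd ha (hy.2 h2)
    · exact h2
    · exact absurd hb (hy.1 h2)

/-- an end `v` of the exact `ab`-arcs of `z` has no exact `ab`-arc -/
theorem no_own_pair (h : Irr U T) (hz : DPt T z a b c d) (hv : DPt T v a b r s)
    (hE : v ∈ closure (Ex T z {a, b})) : False := by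
  obtain ⟨g₁, hg₁⟩ := hv.arc1
  obtain ⟨g₂, hg₂, hne, -⟩ := hg₁.exists_off_line (y := g₁)
  have h1 := on_circle_of_arc h hv hg₁
  have h2 := on_circle_of_arc h hv hg₂
  obtain ⟨y, ⟨hy1, hy2⟩, hyE⟩ :=
    ((h1.and h2).and_frequently (mem_closure_iff_frequently.1 hE)).exists
  have hyT := ex_self hyE
  have ya : a ∈ Pal U y := h.sub y (by rw [hyT]; exact Or.inl rfl)
  have yb : b ∈ Pal U y := h.sub y (by rw [hyT]; exact Or.inr rfl)
  have k1 := hy1 ya yb
  have k2 := hy2 ya yb
  have hab : a ≠ b := hz.ab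
  have cz : (T z).ncard = 4 := DPt.card hz
  have cv : (T v).ncard = 4 := DPt.card hv
  have hyv : y ≠ v := by
    rintro rfl
    rw [hyT, Set.ncard_pair hab] at cv
    omega
  have hgz : ∀ g, Arc T v g {a, b} → z ≠ g := by
    rintro g hg rfl
    rw [hg.mem, Set.ncard_pair hab] at cz
    omega
  have hvz : dist v z = 1 := dist_of_closure hE
  rcases EuclideanGeometry.eq_of_dist_eq_of_dist_eq_of_finrank_eq_two
    (Complex.finrank_real_complex) hyv hne.symm (r₁ := 1) (r₂ := 1) (p := z)
    (by rw [dist_comm]; exact k1) (by rw [dist_comm]; exact k2) (by rw [dist_comm]; exact hyE.1)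
    hg₁.1 hg₂.1 (by rw [dist_comm]; exact hvz) with h3 | h3
  · exact hgz g₁ hg₁ h3
  · exact hgz g₂ hg₂ h3

/-! ### the run at the other end -/

/-- points on a ray at the beginning -/
theorem ray_side {i : Fin 6} {u : ℂ} (hvz : dist v z = 1) (hR : Ray (U i) z u)
    (hm : 0 < ip u (v - z)) (hno : ∀ᶠ w in 𝓝 z, dist w v < 1 → i ∉ Pal U w) : False := by
  have hcont : Tendsto (fun r : ℝ => z + r * u) (𝓝[>] 0) (𝓝 z) := by
    have : Continuous fun r : ℝ => z + r * u := by fun_prop
    have h2 := this.tendsto 0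
    simp only [Complex.ofReal_zero, zero_mul, add_zero] at h2
    exact h2.mono_left nhdsWithin_le_nhds
  have h0 : 0 ≤ ip u u := by unfold ip; nlinarith [sq_nonneg u.re, sq_nonneg u.im]
  have hsm : ∀ᶠ r : ℝ in 𝓝[>] 0, 0 < r ∧ r < ip u (v - z) / (ip u u + 1) := by
    filter_upwards [self_mem_nhdsWithin, mem_nhdsWithin_of_mem_nhds (Iio_mem_nhds
      (show (0 : ℝ) < ip u (v - z) / (ip u u + 1) by positivity))] with r h1 h2
    exact ⟨h1, h2⟩
  obtain ⟨r, hr1, hr2, hr3, hr4⟩ := (hR.and ((hcont.eventually hno).and hsm)).exists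
  refine hr2 ?_ (subset_closure hr1)
  have h3 := sq_line z u v r
  rw [dist_comm z v, hvz] at h3
  rw [lt_div_iff₀ (by positivity)] at hr4
  have h4 : dist (z + r * u) v ^ 2 < 1 := by
    rw [h3]
    have h5 : r * ip u u < ip u (v - z) := by nlinarith
    nlinarith
  nlinarith [dist_nonneg (x := z + r * u) (y := v)]

theorem ray_side' {i : Fin 6} {u : ℂ} (hvz : dist v z = 1) (hR : Ray (U i) z u)
    (hm : ip u (v - z) < 0) (hno : ∀ᶠ w in 𝓝 z, 1 < dist w v → i ∉ Pal U w) : False := by
  have hcont : Tendsto (fun r : ℝ => z + r * u) (𝓝[>] 0) (𝓝 z) := by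
    have : Continuous fun r : ℝ => z + r * u := by fun_prop
    have h2 := this.tendsto 0
    simp only [Complex.ofReal_zero, zero_mul, add_zero] at h2
    exact h2.mono_left nhdsWithin_le_nhds
  have h0 : 0 ≤ ip u u := by unfold ip; nlinarith [sq_nonneg u.re, sq_nonneg u.im]
  obtain ⟨r, hr1, hr2, hr3⟩ := (hR.and ((hcont.eventually hno).and self_mem_nhdsWithin)).exists
  have hr3' : 0 < r := hr3
  refine hr2 ?_ (subset_closure hr1)
  have h3 := sq_line z u v r
  rw [dist_comm z v, hvz] at h3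
  have h4 : 1 < dist (z + r * u) v ^ 2 := by
    rw [h3]
    nlinarith [mul_pos hr3' (neg_pos.2 hm), mul_nonneg (sq_nonneg r) h0]
  nlinarith [dist_nonneg (x := z + r * u) (y := v)]

/-- the set `U e` near `v` is on the near side of `q`: then `U e` does not contain all points near `q`
outside the circle about `v` -/
theorem near_lt (h : Irr U T) {q : ℂ} (hq : dist q v = 1) (hev : e ∈ Pal U v)
    (hs : ∀ᶠ w in 𝓝 v, w ∈ U e → dist w q < 1) : ¬ ∀ᶠ x in 𝓝 q, 1 < dist x v → x ∈ U e := by
  intro hcon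
  have hne : q - v ≠ 0 := by
    intro h0
    rw [sub_eq_zero.1 h0, dist_self] at hq
    exact zero_ne_one hq
  have hn : ‖q - v‖ = 1 := by rw [← dist_eq_norm]; exact hq
  have hc : ContinuousAt (fun w : ℂ => w + (q - w) / (‖q - w‖ : ℂ)) v := by
    refine continuousAt_id.add (ContinuousAt.div (by fun_prop) (by fun_prop) ?_)
    rw [hn]; simp
  have hv0 : v + (q - v) / (‖q - v‖ : ℂ) = q := by rw [hn]; simp
  have hc' : Tendsto (fun w : ℂ => w + (q - w) / (‖q - w‖ : ℂ)) (𝓝 v) (𝓝 q) := by
    have := hc.tendsto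
    rwa [hv0] at this
  have hfr : ∃ᶠ w in 𝓝 v, w ∈ U e := mem_closure_iff_frequently.1 hev
  have hcl : ∀ᶠ w in 𝓝 v, dist w v < 1 := ball_mem_nhds v one_pos
  have hnz : ∀ᶠ w in 𝓝 v, q - w ≠ 0 := by
    have : ContinuousAt (fun w : ℂ => q - w) v := by fun_prop
    exact this.eventually_ne hne
  obtain ⟨w, hwU, hw1, hw2, hw3, hw4⟩ :=
    (hfr.and_eventually (hs.and (hcl.and (hnz.and (hc'.eventually hcon))))).exists
  have hr0 : 0 < ‖q - w‖ := norm_pos_iff.2 hw3
  have hr1 : ‖q - w‖ < 1 := by rw [← dist_eq_norm, dist_comm]; exact hw1 hwU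
  have hrC : (‖q - w‖ : ℂ) ≠ 0 := by exact_mod_cast hr0.ne'
  have hu : ‖(q - w) / (‖q - w‖ : ℂ)‖ = 1 := by
    rw [norm_div, Complex.norm_real, norm_norm, div_self hr0.ne']
  have h1 : 1 < ‖(q - w) / (‖q - w‖ : ℂ) - (v - w)‖ := by
    refine H374.proj_gt (ρ := ‖q - w‖) hu ?_ hr0 hr1 ?_
    · rw [mul_div_cancel₀ _ hrC, sub_sub_sub_cancel_right, hn]
    · rw [← dist_eq_norm, dist_comm]; exact hw2
  have h2 : w + (q - w) / (‖q - w‖ : ℂ) ∈ U e := by
    refine hw4 ?_
    rw [dist_eq_norm]
    have : w + (q - w) / (‖q - w‖ : ℂ) - v = (q - w) / (‖q - w‖ : ℂ) - (v - w) := by ring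
    rw [this]; exact h1
  refine h.mx.free e _ h2 w (subset_closure hwU) ?_
  rw [dist_eq_norm, add_sub_cancel_left, hu]

/-- the set `U e` near `v` is on the far side of `q`: then `U e` does not contain all points near `q`
inside the circle about `v` -/
theorem near_gt (h : Irr U T) {q : ℂ} (hq : dist q v = 1) (hev : e ∈ Pal U v)
    (hs : ∀ᶠ w in 𝓝 v, w ∈ U e → 1 < dist w q) : ¬ ∀ᶠ x in 𝓝 q, dist x v < 1 → x ∈ U e := by
  intro hcon
  have hne : q - v ≠ 0 := by
    intro h0
    rw [sub_eq_zero.1 h0, dist_self] at hq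
    exact zero_ne_one hq
  have hn : ‖q - v‖ = 1 := by rw [← dist_eq_norm]; exact hq
  have hc : ContinuousAt (fun w : ℂ => w + (q - w) / (‖q - w‖ : ℂ)) v := by
    refine continuousAt_id.add (ContinuousAt.div (by fun_prop) (by fun_prop) ?_)
    rw [hn]; simp
  have hv0 : v + (q - v) / (‖q - v‖ : ℂ) = q := by rw [hn]; simp
  have hc' : Tendsto (fun w : ℂ => w + (q - w) / (‖q - w‖ : ℂ)) (𝓝 v) (𝓝 q) := by
    have := hc.tendsto
    rwa [hv0] at this
  have hfr : ∃ᶠ w in 𝓝 v, w ∈ U e := mem_closure_iff_frequently.1 hev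
  have hcl : ∀ᶠ w in 𝓝 v, dist w v < 1 := ball_mem_nhds v one_pos
  have hnz : ∀ᶠ w in 𝓝 v, q - w ≠ 0 := by
    have : ContinuousAt (fun w : ℂ => q - w) v := by fun_prop
    exact this.eventually_ne hne
  obtain ⟨w, hwU, hw1, hw2, hw3, hw4⟩ :=
    (hfr.and_eventually (hs.and (hcl.and (hnz.and (hc'.eventually hcon))))).exists
  have hr0 : 0 < ‖q - w‖ := norm_pos_iff.2 hw3
  have hr1 : 1 < ‖q - w‖ := by rw [← dist_eq_norm, dist_comm]; exact hw1 hwU
  have hrC : (‖q - w‖ : ℂ) ≠ 0 := by exact_mod_cast hr0.ne'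
  have hu : ‖(q - w) / (‖q - w‖ : ℂ)‖ = 1 := by
    rw [norm_div, Complex.norm_real, norm_norm, div_self hr0.ne']
  have h1 : ‖(q - w) / (‖q - w‖ : ℂ) - (v - w)‖ < 1 := by
    refine H374.proj_lt (ρ := ‖q - w‖) hu ?_ hr1 ?_
    · rw [mul_div_cancel₀ _ hrC, sub_sub_sub_cancel_right, hn]
    · rw [← dist_eq_norm, dist_comm]; exact hw2
  have h2 : w + (q - w) / (‖q - w‖ : ℂ) ∈ U e := by
    refine hw4 ?_
    rw [dist_eq_norm]
    have : w + (q - w) / (‖q - w‖ : ℂ) - v = (q - w) / (‖q - w‖ : ℂ) - (v - w) := by ring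
    rw [this]; exact h1
  refine h.mx.free e _ h2 w (subset_closure hwU) ?_
  rw [dist_eq_norm, add_sub_cancel_left, hu]

/-- an arc `J` of the circle about `v` which carries `e`: the points of `U e` are on the same side of
all points of `J` -/
theorem same_side (h : Irr U T) {J : Set ℂ} (hJ : IsPreconnected J) (hJe : ∀ y ∈ J, e ∈ Pal U y)
    {q w : ℂ} (hz : z ∈ J) (hq : q ∈ J) (hw : w ∈ U e) : (dist w z < 1 ↔ dist w q < 1) := by
  have key : ∀ {x y : ℂ}, x ∈ J → y ∈ J → dist w x < 1 → dist w y < 1 := by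
    intro x y hx hy h1
    by_contra hcon
    have h2 : (1 : ℝ) ∈ (fun p : ℂ => dist w p) '' J :=
      hJ.intermediate_value hx hy (by fun_prop) ⟨h1.le, not_lt.1 hcon⟩
    obtain ⟨p, hp, hp1⟩ := h2
    exact h.mx.free e w hw p (hJe p hp) hp1
  exact ⟨key hz hq, key hq hz⟩

/-- the pure points of the colour `p` of a minimal palette, outside the circle about `v` -/
theorem far_out (h : Irr U T) (hm : MnAt U T z) (hzv : dist z v = 1) (he : e ∈ T z) (hp : p ∈ T z)
    (hpe : p ≠ e) (hrun : ∀ᶠ w in 𝓝[sphere v 1] z, e ∈ T w)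
    (hin : ∀ᶠ w in 𝓝 z, dist w v < 1 → Fre U e w)
    (hno : ∀ᶠ y in 𝓝 v, 1 < dist y z → e ∉ Pal U y) : ∃ᶠ w in 𝓝 z, T w = {p} ∧ 1 < dist w v := by
  have hrun' : ∀ᶠ q in 𝓝 z, q ∈ sphere v (1 : ℝ) → e ∈ T q := eventually_nhdsWithin_iff.1 hrun
  obtain ⟨θ, hθ⟩ := exists_cis (u := z - v) (by rw [← dist_eq_norm]; exact hzv)
  have hzθ : z = v + cis θ := by rw [← hθ]; ring
  have hJ0 : ∀ᶠ q in 𝓝[sphere v 1] (v + cis θ), e ∈ Pal U q := by
    rw [← hzθ]; exact hrun.mono fun q hq => h.sub q hq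
  obtain ⟨η, hη, hJe⟩ := H374.exists_arcs hJ0
  have hJc := H374.arcs_preconnected v θ η
  have hzJ : z ∈ H374.arcs v θ η := by
    have := H374.mem_arcs (x := v) (θ := θ) (η := η) (α := 0) (by rw [abs_zero]; exact hη)
    rwa [add_zero, ← hzθ] at this
  have hnear : ∀ᶠ q in 𝓝 z, ∃ α : ℝ, |α| < η ∧ q = v + (dist q v : ℂ) * cis (θ + α) := by
    have := H374.ev_dir (x := v) (θ := θ) one_pos hη
    rw [Complex.ofReal_one, one_mul, ← hzθ] at this
    exact this
  refine (side_far h hm he hp hpe (φ := fun w => dist w v - 1) (by fun_prop) ?_ ?_ ?_).mono ?_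
  · filter_upwards [hin] with w hw h1
    exact hw (by linarith)
  · filter_upwards [hrun'] with w hw h1
    exact hw (by rw [mem_sphere]; linarith)
  · filter_upwards [hrun'.eventually_nhds, hnear] with q hq hqn h1 hb hcon
    have hqv : dist q v = 1 := by linarith
    have hqJ : q ∈ H374.arcs v θ η := by
      obtain ⟨α, hα, hqα⟩ := hqn
      rw [hqv, Complex.ofReal_one, one_mul] at hqα
      rw [hqα]; exact H374.mem_arcs hα
    have hcon' : ∀ᶠ x in 𝓝 q, 1 < dist x v → x ∈ U e := hcon.mono fun x hx h2 => hx (by linarith)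
    by_cases hev : e ∈ Pal U v
    · refine near_lt h hqv hev ?_ hcon'
      filter_upwards [hno] with w hw hwU
      refine (same_side h hJc hJe hzJ hqJ hwU).1 ?_
      rcases lt_trichotomy (dist w z) 1 with h2 | h2 | h2
      · exact h2
      · exact absurd (h.sub z he) (h.mx.notMem' hwU h2)
      · exact absurd (subset_closure hwU) (hw h2)
    · refine out_freq h hqv ?_ hev hb hcon'
      exact eventually_nhdsWithin_iff.2 (hq.mono fun q' h1 h2 => h.sub _ (h1 h2))
  · rintro w ⟨h1, h2⟩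
    exact ⟨h1, by linarith⟩

/-- the pure points of the colour `p` of a minimal palette, inside the circle about `v` -/
theorem far_in (h : Irr U T) (hm : MnAt U T z) (hzv : dist z v = 1) (he : e ∈ T z) (hp : p ∈ T z)
    (hpe : p ≠ e) (hrun : ∀ᶠ w in 𝓝[sphere v 1] z, e ∈ T w)
    (hout : ∀ᶠ w in 𝓝 z, 1 < dist w v → Fre U e w)
    (hno : ∀ᶠ y in 𝓝 v, dist y z < 1 → e ∉ Pal U y)
    (hfar : ∀ᶠ w in 𝓝 (2 * z - v), e ∉ Pal U w) : ∃ᶠ w in 𝓝 z, T w = {p} ∧ dist w v < 1 := by
  have hrun' : ∀ᶠ q in 𝓝 z, q ∈ sphere v (1 : ℝ) → e ∈ T q := eventually_nhdsWithin_iff.1 hrun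
  obtain ⟨θ, hθ⟩ := exists_cis (u := z - v) (by rw [← dist_eq_norm]; exact hzv)
  have hzθ : z = v + cis θ := by rw [← hθ]; ring
  have hJ0 : ∀ᶠ q in 𝓝[sphere v 1] (v + cis θ), e ∈ Pal U q := by
    rw [← hzθ]; exact hrun.mono fun q hq => h.sub q hq
  obtain ⟨η, hη, hJe⟩ := H374.exists_arcs hJ0
  have hJc := H374.arcs_preconnected v θ η
  have hzJ : z ∈ H374.arcs v θ η := by
    have := H374.mem_arcs (x := v) (θ := θ) (η := η) (α := 0) (by rw [abs_zero]; exact hη)
    rwa [add_zero, ← hzθ] at this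
  have hnear : ∀ᶠ q in 𝓝 z, ∃ α : ℝ, |α| < η ∧ q = v + (dist q v : ℂ) * cis (θ + α) := by
    have := H374.ev_dir (x := v) (θ := θ) one_pos hη
    rw [Complex.ofReal_one, one_mul, ← hzθ] at this
    exact this
  have hfar' : ∀ᶠ q in 𝓝 z, e ∉ Pal U (2 * q - v) := by
    have hc : Tendsto (fun q : ℂ => 2 * q - v) (𝓝 z) (𝓝 (2 * z - v)) := by
      have : Continuous fun q : ℂ => 2 * q - v := by fun_prop
      exact this.tendsto z
    exact hc.eventually hfar
  refine (side_far h hm he hp hpe (φ := fun w => 1 - dist w v) (by fun_prop) ?_ ?_ ?_).mono ?_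
  · filter_upwards [hout] with w hw h1
    exact hw (by linarith)
  · filter_upwards [hrun'] with w hw h1
    exact hw (by rw [mem_sphere]; linarith)
  · filter_upwards [hrun'.eventually_nhds, hnear, hfar'] with q hq hqn hqf h1 hb hcon
    have hqv : dist q v = 1 := by linarith
    have hqJ : q ∈ H374.arcs v θ η := by
      obtain ⟨α, hα, hqα⟩ := hqn
      rw [hqv, Complex.ofReal_one, one_mul] at hqα
      rw [hqα]; exact H374.mem_arcs hα
    have hcon' : ∀ᶠ x in 𝓝 q, dist x v < 1 → x ∈ U e := hcon.mono fun x hx h2 => hx (by linarith)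
    have hev : e ∈ Pal U v := by
      unfold Fre at hb
      push Not at hb
      obtain ⟨y, hy, hqy⟩ := hb
      have hJq : ∀ᶠ q' in 𝓝[sphere v 1] q, e ∈ Pal U q' :=
        eventually_nhdsWithin_iff.2 (hq.mono fun q' h1 h2 => h.sub _ (h1 h2))
      rcases h.mx.partner_line hqv hJq hqy hy with h2 | h2
      · exact h2 ▸ hy
      · exact absurd ((show y = 2 * q - v by rw [← h2]; ring) ▸ hy) hqf
    refine near_gt h hqv hev ?_ hcon'
    filter_upwards [hno] with w hw hwU
    rcases lt_trichotomy (dist w q) 1 with h2 | h2 | h2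
    · exact absurd (subset_closure hwU) (hw ((same_side h hJc hJe hzJ hqJ hwU).2 h2))
    · exact absurd (hJe q hqJ) (h.mx.notMem' hwU h2)
    · exact h2
  · rintro w ⟨h1, h2⟩
    exact ⟨h1, by linarith⟩

/-- core of `no_run_end`: the exact pairs are `ab | ed` at `z` and `pd | rs` at `v` -/
theorem no_run_core (h : Irr U T) (hmn : Mn U T) (hz : DPt T z a b e d) (hv : DPt T v p d r s)
    (hE : v ∈ closure (Ex T z {a, b})) (heT : e ∉ T v)
    (hrun : ∀ᶠ w in 𝓝[sphere v 1] z, e ∈ T w) (hp : p ∈ T z) : False := by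
  have hvz : dist v z = 1 := dist_of_closure hE
  have hzv : dist z v = 1 := by rw [dist_comm]; exact hvz
  have hzS : z ∈ sphere v 1 := hzv
  have heZ : e ∈ T z := hrun.self_of_nhdsWithin hzS
  have hpe : p ≠ e := by rintro rfl; exact heT (by rw [hv.pal]; simp)
  have hrunP : ∀ᶠ w in 𝓝[sphere v 1] z, e ∈ Pal U w := hrun.mono fun w hw => h.sub w hw
  have hrun' : ∀ᶠ w in 𝓝 z, dist w v = 1 → e ∈ T w := eventually_nhdsWithin_iff.1 hrun
  -- a point of an exact `ab`-arc near `v`
  have hab : a ≠ b := hz.ab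
  have cv : (T v).ncard = 4 := DPt.card hv
  have hvS : ∀ᶠ y in 𝓝 v, y + v ≠ 2 * z := by
    have hc : ContinuousAt (fun y : ℂ => y + v) v := by fun_prop
    refine hc.eventually_ne (fun hcon => ?_)
    have : v = z := by linear_combination hcon / 2
    rw [this, dist_self] at hvz
    exact zero_ne_one hvz
  obtain ⟨y, hyE, hy2⟩ := ((mem_closure_iff_frequently.1 hE).and_eventually hvS).exists
  have hyT := ex_self hyE
  have hyv : y ≠ v := by
    rintro rfl
    rw [hyT, Set.ncard_pair hab] at cv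
    omega
  have hcr := cr_ne_of hyE.1 hvz hyv hy2
  rw [← ip_I] at hcr
  have hgA : Arc T z y {a, b} := ⟨hyE.1, hyE.2⟩
  obtain ⟨σ, u, hσ, hu, hpos⟩ : ∃ σ : ℝ, ∃ u : ℂ, (σ = 1 ∨ σ = -1) ∧
      u = σ * (Complex.I * (y - z)) ∧ 0 < ip u (v - z) := by
    rcases lt_or_gt_of_ne hcr with h1 | h1
    · refine ⟨-1, _, Or.inr rfl, rfl, ?_⟩
      have : ((-1 : ℝ) : ℂ) * (Complex.I * (y - z)) = -(Complex.I * (y - z)) := by
        push_cast; ring
      rw [this, ip_neg]
      linarith
    · refine ⟨1, _, Or.inl rfl, rfl, ?_⟩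
      have : ((1 : ℝ) : ℂ) * (Complex.I * (y - z)) = Complex.I * (y - z) := by
        push_cast; ring
      rw [this]
      exact h1
  have hr1 : Ray (U e) z u ∨ Ray (U d) z u := h.d0_one hz.swap hgA hσ hu
  have hr2 : Ray (U e) z (-u) ∨ Ray (U d) z (-u) := by
    refine h.d0_one hz.swap hgA (σ := -σ) ?_ ?_
    · rcases hσ with rfl | rfl
      · exact Or.inr rfl
      · left; norm_num
    · rw [hu]; push_cast; ring
  have hneg : ip (-u) (v - z) < 0 := by rw [ip_neg]; linarith
  rcases h.sides hv (V := z) hzv with hS | hS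
  · -- `p` absent outside, `d` absent inside: the inner ray is in `U e`
    have hRe : Ray (U e) z u := by
      rcases hr1 with h1 | h1
      · exact h1
      · exact (ray_side hvz h1 hpos (hS.mono fun w hw => hw.2)).elim
    have hno := h.mx.far hRe hvz hpos
    have hin := H374.side_in h hzv hrunP hno
    obtain ⟨w, ⟨hwT, hwQ⟩, hw⟩ := ((far_out h (hmn z (by rw [DPt.card hz])) hzv heZ hp hpe hrun
      hin hno).and_eventually hS).exists
    exact hw.1 hwQ (h.sub w (by rw [hwT]; exact mem_singleton p))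
  · -- `d` absent outside, `p` absent inside: the outer ray is in `U e`
    have hRe : Ray (U e) z (-u) := by
      rcases hr2 with h1 | h1
      · exact h1
      · exact (ray_side' hvz h1 hneg (hS.mono fun w hw => hw.1)).elim
    have hno := h.mx.near hRe hvz hneg
    have h2z : dist (2 * z - v) z = 1 := by
      rw [← hvz, dist_eq_norm, dist_eq_norm, ← norm_neg]
      congr 1; ring
    have hfar1 := h.mx.far hRe h2z (by
      have : ip (-u) (2 * z - v - z) = ip u (v - z) := by
        unfold ip; simp; ring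
      rw [this]; exact hpos)
    have hfar2 := outer_free h hzv hrunP
    have hfU : ∀ᶠ w in 𝓝 (2 * z - v), w ∉ U e := by
      filter_upwards [hfar1, hfar2] with w h1 h2 hw
      have h3 : dist w z ≤ 1 := by
        by_contra hcon
        exact h1 (not_le.1 hcon) (subset_closure hw)
      have h4 : 2 ≤ dist w v := by
        by_contra hcon
        exact h2 (not_le.1 hcon) hw
      have h5 := dist_triangle w z v
      have h6 : dist w z = 1 := by linarith
      exact h.mx.notMem' hw h6 (h.sub z heZ)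
    have hfar : ∀ᶠ w in 𝓝 (2 * z - v), e ∉ Pal U w := by
      filter_upwards [eventually_eventually_nhds.2 hfU] with w hw hcon
      obtain ⟨x, hx1, hx2⟩ := ((mem_closure_iff_frequently.1 hcon).and_eventually hw).exists
      exact hx2 hx1
    have hout := H374.side_out h hzv hrunP hno hfar
    obtain ⟨w, ⟨hwT, hwQ⟩, hw⟩ := ((far_in h (hmn z (by rw [DPt.card hz])) hzv heZ hp hpe hrun
      hout hno hfar).and_eventually hS).exists
    exact hw.2 hwQ (h.sub w (by rw [hwT]; exact mem_singleton p))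

/-- **No run at the other end.** -/
theorem no_run_end (h : Irr U T) (hmn : Mn U T) (hz : DPt T z a b c d) (hv : DPt T v p q r s)
    (hE : v ∈ closure (Ex T z {a, b})) (heT : e ∉ T v)
    (hrun : ∀ᶠ w in 𝓝[sphere v 1] z, e ∈ T w) (hp : p ∈ T z) (hq : q ∈ T z) : False := by
  have hvz : dist v z = 1 := dist_of_closure hE
  have hzS : z ∈ sphere v 1 := by rw [mem_sphere, dist_comm]; exact hvz
  have heZ : e ∈ T z := hrun.self_of_nhdsWithin hzS
  have hsub := sub_of_closure h hE
  have ha : a ∈ T v := hsub (Or.inl rfl)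
  have hb : b ∈ T v := hsub (Or.inr rfl)
  have hpe : p ≠ e := by rintro rfl; exact heT (by rw [hv.pal]; simp)
  have hqe : q ≠ e := by rintro rfl; exact heT (by rw [hv.pal]; simp)
  -- the version with `c = e`
  have key : ∀ {a b d : Fin 6}, DPt T z a b e d → v ∈ closure (Ex T z {a, b}) → False := by
    intro a b d hz hE
    have hpz := hp
    have hqz := hq
    rw [hz.pal] at hpz hqz
    have core1 : q = d → False := by
      rintro rfl
      exact no_run_core h hmn hz hv hE heT hrun hp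
    have core2 : p = d → False := by
      rintro rfl
      exact no_run_core h hmn hz hv.swap12 hE heT hrun hq
    rcases hpz with h1 | h1 | h1 | h1
    · rcases hqz with h2 | h2 | h2 | h2
      · exact hv.ab (h1.trans h2.symm)
      · subst h1; subst h2; exact no_own_pair h hz hv hE
      · exact hqe h2
      · exact core1 h2
    · rcases hqz with h2 | h2 | h2 | h2
      · subst h1; subst h2; exact no_own_pair h hz hv.swap12 hE
      · exact hv.ab (h1.trans h2.symm)
      · exact hqe h2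
      · exact core1 h2
    · exact hpe h1
    · exact core2 h1
  have heZ' := heZ
  rw [hz.pal] at heZ'
  rcases heZ' with h1 | h1 | h1 | h1
  · exact heT (h1 ▸ ha)
  · exact heT (h1 ▸ hb)
  · subst h1; exact key hz hE
  · rw [mem_singleton_iff] at h1
    subst h1
    exact key (by
      have := hz.swap.swap12.swap
      exact this) hE

/-! ### the points of the circle -/

/-- the types of a point with more than three colours -/
theorem point_types (h : Irr U T) (h4 : ∀ z, (T z).ncard ≤ 4) (hz : DPt T z a b c d)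
    (nd : [a, b, c, d, e, f].Nodup) {y : ℂ} (hy4 : 4 ≤ (T y).ncard) :
    y ∈ closure (Ex T z {a, b}) ∨ y ∈ closure (Ex T z {c, d}) ∨
      (T y = {a, b, e, f} ∨ T y = {c, d, e, f} ∨ T y = {a, c, e, f} ∨ T y = {a, d, e, f} ∨
        T y = {b, c, e, f} ∨ T y = {b, d, e, f}) ∨
      (f ∉ T y ∧ ∀ᶠ w in 𝓝[sphere z 1] y, e ∈ T w) ∨
      (e ∉ T y ∧ ∀ᶠ w in 𝓝[sphere z 1] y, f ∈ T w) := by
  have C := ctr_of_dpt h hz nd
  by_cases n2 : y ∈ closure (Ex T z {a, b})
  · exact Or.inl n2
  by_cases n3 : y ∈ closure (Ex T z {c, d})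
  · exact Or.inr (Or.inl n3)
  right; right
  have o2 : ∀ᶠ q in 𝓝 y, q ∉ closure (Ex T z {a, b}) :=
    isClosed_closure.isOpen_compl.mem_nhds n2
  have o3 : ∀ᶠ q in 𝓝 y, q ∉ closure (Ex T z {c, d}) :=
    isClosed_closure.isOpen_compl.mem_nhds n3
  have main : ∀ {e f : Fin 6}, Ctr U T z a b c d e f → f ∉ T y →
      ∀ᶠ w in 𝓝[sphere z 1] y, e ∈ T w := by
    intro e f C hf
    filter_upwards [mem_nhdsWithin_of_mem_nhds o2, mem_nhdsWithin_of_mem_nhds o3,
      mem_nhdsWithin_of_mem_nhds (h.nhd y), self_mem_nhdsWithin] with q k2 k3 k4 k5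
    obtain ⟨l, hl⟩ := C.cover (y := q) k5
    fin_cases l
    · exact hl.2
    · exact absurd (k4 hl.2) hf
    · exact absurd hl k2
    · exact absurd hl k3
  by_cases hf : f ∈ T y
  · by_cases he : e ∈ T y
    · exact Or.inl (pal_cases h4 C he hf hy4)
    · exact Or.inr (Or.inr ⟨he, main C.swapEF he⟩)
  · exact Or.inr (Or.inl ⟨hf, main C hf⟩)

/-- three of the four colours of a two-pair point contain one of the pairs -/
theorem pair_of_three (h : Irr U T) (h4 : 4 ≤ (T z).ncard) (hv : DPt T v p q r s)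
    (nd : [p, q, r, s, e, f].Nodup) (hf : f ∉ T z) :
    (p ∈ T z ∧ q ∈ T z) ∨ (r ∈ T z ∧ s ∈ T z) := by
  by_contra hcon
  push Not at hcon
  obtain ⟨h1, h2⟩ := hcon
  have hsub : ∃ i j : Fin 6, T z ⊆ {i, j, e} := by
    have all := (ctr_of_dpt h hv nd).all
    by_cases hp : p ∈ T z
    · have hq := h1 hp
      by_cases hr : r ∈ T z
      · have hs := h2 hr
        refine ⟨p, r, fun x hx => ?_⟩
        rcases all x with rfl | rfl | rfl | rfl | rfl | rfl
        · simp
        · exact absurd hx hq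
        · simp
        · exact absurd hx hs
        · simp
        · exact absurd hx hf
      · refine ⟨p, s, fun x hx => ?_⟩
        rcases all x with rfl | rfl | rfl | rfl | rfl | rfl
        · simp
        · exact absurd hx hq
        · exact absurd hx hr
        · simp
        · simp
        · exact absurd hx hf
    · by_cases hr : r ∈ T z
      · have hs := h2 hr
        refine ⟨q, r, fun x hx => ?_⟩
        rcases all x with rfl | rfl | rfl | rfl | rfl | rfl
        · exact absurd hx hp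
        · simp
        · simp
        · exact absurd hx hs
        · simp
        · exact absurd hx hf
      · refine ⟨q, s, fun x hx => ?_⟩
        rcases all x with rfl | rfl | rfl | rfl | rfl | rfl
        · exact absurd hx hp
        · simp
        · exact absurd hx hr
        · simp
        · simp
        · exact absurd hx hf
  obtain ⟨i, j, hij⟩ := hsub
  have h5 := Set.ncard_le_ncard hij (Set.toFinite _)
  have h6 : ({i, j, e} : Set (Fin 6)).ncard ≤ 3 := by
    have k1 := Set.ncard_insert_le i {j, e}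
    have k2 := Set.ncard_insert_le j {e}
    rw [Set.ncard_singleton] at k2
    omega
  omega

/-! ### the starts -/

/-- start B: a crossing palette with both missing colours on the circle of a two-pair point -/
def KB (T : ℂ → Set (Fin 6)) : Prop :=
  ∃ z a b c d e f v, DPt T z a b c d ∧ [a, b, c, d, e, f].Nodup ∧ dist v z = 1 ∧
    T v = {a, c, e, f}

/-- start C: an exact pair with both missing colours on the circle, and both missing colours at
distance one of it -/
def KC (T : ℂ → Set (Fin 6)) : Prop :=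
  ∃ z a b c d e f v v', DPt T z a b c d ∧ [a, b, c, d, e, f].Nodup ∧ dist v z = 1 ∧
    dist v' z = 1 ∧ dist v v' = 1 ∧ T v = {a, b, e, f} ∧ e ∈ T v' ∧ f ∈ T v'

/-- start E: a four coloured end `v` of the exact `ab`-arcs of `z`; `v` has only one exact pair, or
`v` is a two-pair point and `z` is an end of its exact `pq`-arcs -/
def KE (T : ℂ → Set (Fin 6)) : Prop :=
  ∃ z a b c d e f v, DPt T z a b c d ∧ [a, b, c, d, e, f].Nodup ∧ dist v z = 1 ∧
    (T v).ncard = 4 ∧ v ∈ closure (Ex T z {a, b}) ∧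
    ((∀ P ∈ MM T v, ∀ Q ∈ MM T v, P = Q) ∨
      ∃ p q r s, DPt T v p q r s ∧ z ∈ closure (Ex T v {p, q}))

/-- the crossing palettes -/
theorem KB.of (hB : ¬ KB T) (hz : DPt T z a b c d) (nd : [a, b, c, d, e, f].Nodup)
    (hv : dist v z = 1) : T v ≠ {a, c, e, f} ∧ T v ≠ {a, d, e, f} ∧ T v ≠ {b, c, e, f} ∧
      T v ≠ {b, d, e, f} := by
  have p1 : ∀ {a b c d e f : Fin 6}, [a, b, c, d, e, f].Nodup → [b, a, c, d, e, f].Nodup :=
    fun {a b _ _ _ _} nd => (List.Perm.swap b a _).nodup_iff.1 nd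
  have p2 : ∀ {a b c d e f : Fin 6}, [a, b, c, d, e, f].Nodup → [a, b, d, c, e, f].Nodup :=
    fun {a b c d _ _} nd => (((List.Perm.swap d c _).cons b).cons a).nodup_iff.1 nd
  refine ⟨fun hT => hB ⟨z, a, b, c, d, e, f, v, hz, nd, hv, hT⟩,
    fun hT => hB ⟨z, a, b, d, c, e, f, v, ?_, p2 nd, hv, hT⟩,
    fun hT => hB ⟨z, b, a, c, d, e, f, v, hz.swap12, p1 nd, hv, hT⟩,
    fun hT => hB ⟨z, b, a, d, c, e, f, v, ?_, p1 (p2 nd), hv, hT⟩⟩
  · exact hz.swap.swap12.swap
  · exact hz.swap.swap12.swap.swap12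

/-- the end `v` of the exact `ab`-arcs of `z` is a two-pair point: `z` is an end of its exact arcs -/
theorem ends_mutual (h : Irr U T) (hmn : Mn U T) (h4 : ∀ z, (T z).ncard ≤ 4) (hB : ¬ KB T)
    (hz : DPt T z a b c d) (hv : DPt T v p q r s) (hE : v ∈ closure (Ex T z {a, b})) :
    z ∈ closure (Ex T v {p, q}) ∨ z ∈ closure (Ex T v {r, s}) := by
  have hvz : dist v z = 1 := dist_of_closure hE
  have hzv : dist z v = 1 := by rw [dist_comm]; exact hvz
  have hz4 : 4 ≤ (T z).ncard := by rw [DPt.card hz]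
  obtain ⟨e, f, nd⟩ := hv.exists_nodup
  have hsub := sub_of_closure h hE
  have ha : a ∈ T v := hsub (Or.inl rfl)
  have hb : b ∈ T v := hsub (Or.inr rfl)
  have haz : a ∈ T z := by rw [hz.pal]; simp
  have hbz : b ∈ T z := by rw [hz.pal]; simp
  have hev : e ∉ T v := by
    rw [hv.pal]
    simp only [List.nodup_cons, List.mem_cons, List.not_mem_nil, or_false, not_or,
      not_false_eq_true, List.nodup_nil, and_true] at nd
    obtain ⟨⟨ab, ac, ad, ae, af⟩, ⟨bc, bd, be, bf⟩, ⟨cd, ce, cf⟩, ⟨de, df⟩, ef⟩ := nd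
    simp [Ne.symm ae, Ne.symm be, Ne.symm ce, Ne.symm de]
  have hfv : f ∉ T v := by
    rw [hv.pal]
    simp only [List.nodup_cons, List.mem_cons, List.not_mem_nil, or_false, not_or,
      not_false_eq_true, List.nodup_nil, and_true] at nd
    obtain ⟨⟨ab, ac, ad, ae, af⟩, ⟨bc, bd, be, bf⟩, ⟨cd, ce, cf⟩, ⟨de, df⟩, ef⟩ := nd
    simp [Ne.symm af, Ne.symm bf, Ne.symm cf, Ne.symm df]
  have hae : a ≠ e := by rintro rfl; exact hev ha
  have haf : a ≠ f := by rintro rfl; exact hfv ha
  have hbe : b ≠ e := by rintro rfl; exact hev hb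
  have hbf : b ≠ f := by rintro rfl; exact hfv hb
  obtain ⟨k1, k2, k3, k4⟩ := KB.of hB hv nd hzv
  rcases point_types h h4 hv nd hz4 with h1 | h1 | h1 | ⟨hf, hr⟩ | ⟨he, hr⟩
  · exact Or.inl h1
  · exact Or.inr h1
  · exfalso
    rcases h1 with h1 | h1 | h1 | h1 | h1 | h1
    · rw [h1] at haz hbz
      simp only [mem_insert_iff, mem_singleton_iff, hae, haf, hbe, hbf, or_false] at haz hbz
      rcases haz with rfl | rfl
      · rcases hbz with rfl | rfl
        · exact hz.ab rfl
        · exact no_own_pair h hz hv hE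
      · rcases hbz with rfl | rfl
        · exact no_own_pair h hz hv.swap12 hE
        · exact hz.ab rfl
    · rw [h1] at haz hbz
      simp only [mem_insert_iff, mem_singleton_iff, hae, haf, hbe, hbf, or_false] at haz hbz
      rcases haz with rfl | rfl
      · rcases hbz with rfl | rfl
        · exact hz.ab rfl
        · exact no_own_pair h hz hv.swap hE
      · rcases hbz with rfl | rfl
        · exact no_own_pair h hz hv.swap.swap12 hE
        · exact hz.ab rfl
    · exact k1 h1
    · exact k2 h1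
    · exact k3 h1
    · exact k4 h1
  · exfalso
    rcases pair_of_three h hz4 hv nd hf with ⟨h2, h3⟩ | ⟨h2, h3⟩
    · exact no_run_end h hmn hz hv hE hev hr h2 h3
    · exact no_run_end h hmn hz hv.swap hE hev hr h2 h3
  · exfalso
    have nd' : [p, q, r, s, f, e].Nodup :=
      (((((List.Perm.swap f e []).cons s).cons r).cons q).cons p).nodup_iff.1 nd
    rcases pair_of_three h hz4 hv nd' he with ⟨h2, h3⟩ | ⟨h2, h3⟩
    · exact no_run_end h hmn hz hv hE hfv hr h2 h3
    · exact no_run_end h hmn hz hv.swap hE hfv hr h2 h3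

/-- **The starts in the order B, C, E.** -/
theorem starts_bce (h : Irr U T) (hmn : Mn U T) (h4 : ∀ z, (T z).ncard ≤ 4)
    (hD : ∃ z a b c d, DPt T z a b c d) :
    KB T ∨ (¬ KB T ∧ KC T) ∨ (¬ KB T ∧ ¬ KC T ∧ KE T) := by
  by_cases hB : KB T
  · exact Or.inl hB
  by_cases hC : KC T
  · exact Or.inr (Or.inl ⟨hB, hC⟩)
  refine Or.inr (Or.inr ⟨hB, hC, ?_⟩)
  obtain ⟨z, a, b, c, d, hz⟩ := hD
  obtain ⟨z, a, b, c, d, e, f, v, hs⟩ := exists_special h h4 hz
  have hv4 : (T v).ncard = 4 := le_antisymm (h4 v) hs.four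
  rcases hs.kind with h1 | h1 | ⟨h1, v', h2, h3, h5, h6⟩
  · refine ⟨z, a, b, c, d, e, f, v, hs.dpt, hs.nd, hs.dist, hv4, h1, ?_⟩
    by_cases hu : ∀ P ∈ MM T v, ∀ Q ∈ MM T v, P = Q
    · exact Or.inl hu
    right
    push Not at hu
    obtain ⟨P, hP, Q, hQ, hne⟩ := hu
    obtain ⟨p, q, r, s, hv⟩ := dpt_of_two h hmn hv4 hP hQ hne
    rcases ends_mutual h hmn h4 hB hs.dpt hv h1 with k | k
    · exact ⟨p, q, r, s, hv, k⟩
    · exact ⟨r, s, p, q, hv.swap, k⟩
  · exact absurd ⟨z, a, b, c, d, e, f, v, hs.dpt, hs.nd, hs.dist, h1⟩ hB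
  · exact absurd ⟨z, a, b, c, d, e, f, v, v', hs.dpt, hs.nd, hs.dist, h2, h3, h1, h5, h6⟩ hC

end Vale.Agent.P032.H942
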